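import Vale.Agent.P202.Segre.Slice
import Vale.Agent.P202.Segre.Action
import Vale.Agent.P202.Window.Total
import Vale.Agent.P202.NC.LamDiff

/-!
# P202, general source ring: homology of the truncated Čech complex

In position `j` the homology of the complex cut to degrees `≥ L` is the space of functions on the
harmonic monomials, and a power series acts on it by a Toeplitz operator.
-/

noncomputable section

namespace Vale.Agent.P202.NC.Band

open Finset Segre

/-- Homology through a surjection on cycles with kernel the boundaries. -/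
def homEquivOfKer {F M N : Type*} [CommRing F] [AddCommGroup M] [Module F M] [AddCommGroup N]
    [Module F N] (D : Diff F M) (X : Submodule F M) (j : ℤ) (Q : D.cycles X ⊥ j →ₗ[F] N)
    (hs : Function.Surjective Q)
    (hk : LinearMap.ker Q = (D.bdries X ⊥ j).comap (D.cycles X ⊥ j).subtype) :
    D.H X ⊥ j ≃ₗ[F] N :=
  (Submodule.quotEquivOfEq _ _ hk.symm).trans (Q.quotKerEquivOfSurjective hs)

theorem homEquivOfKer_mk {F M N : Type*} [CommRing F] [AddCommGroup M] [Module F M]
    [AddCommGroup N] [Module F N] (D : Diff F M) (X : Submodule F M) (j : ℤ)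
    (Q : D.cycles X ⊥ j →ₗ[F] N) (hs : Function.Surjective Q)
    (hk : LinearMap.ker Q = (D.bdries X ⊥ j).comap (D.cycles X ⊥ j).subtype)
    (x : D.cycles X ⊥ j) : homEquivOfKer D X j Q hs hk (Submodule.Quotient.mk x) = Q x := rfl

variable {k : Type*} [Field k] {n : ℕ} (K : ℕ)

theorem mem_cutK {L : ℤ} {f : Cov n → Lam k n} :
    f ∈ cutK k n K L ↔ (∀ e, f e ∈ comp k n K e) ∧ ∀ e t, t < L → (f e).coeff t = 0 := Iff.rfl

variable (k n) in
/-- The coefficients in degree `t`. -/
def coefT (t : ℤ) : (Cov n → Lam k n) →ₗ[k] (Cov n → Coef k n) where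
  toFun f e := (f e).coeff t
  map_add' f g := by funext e; simp
  map_smul' c f := by funext e; simp

theorem coefT_delta (f : Cov n → Lam k n) (t : ℤ) :
    coefT k n t (delta k (Lam k n) f) = delta k (Coef k n) (coefT k n t f) :=
  funext fun e => Window.delta_map (R := k) (R' := k) (Window.coeffHom t) f e

theorem coefT_mem_slice {L : ℤ} {f : Cov n → Lam k n} (hf : f ∈ cutK k n K L) (t : ℤ) :
    coefT k n t f ∈ slice k n K t := fun e α h => hf.1 e t α h

theorem coefT_mem_deg {j : ℤ} {f : Cov n → Lam k n} (hf : f ∈ (lamDiff k n).deg j) (t : ℤ) :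
    coefT k n t f ∈ (sliceDiff k n).deg j := fun e he => by
  show (f e).coeff t = 0
  rw [hf e he]
  simp

theorem slice_delta_mem {t : ℤ} {f : Cov n → Coef k n} (hf : f ∈ slice k n K t) :
    delta k (Coef k n) f ∈ slice k n K t :=
  mem_slice_of_supC K fun α => by rw [coefA_delta]; exact supC_dC (supC_of_slice K hf α)

theorem cutK_stable (L : ℤ) : (lamDiff k n).Stable (cutK k n K L) := by
  intro f hf
  refine ⟨fun e t α h => ?_, fun e t ht => ?_⟩
  · have h' : (coefT k n t (delta k (Lam k n) f) e).coeff α ≠ 0 := h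
    rw [coefT_delta] at h'
    exact slice_delta_mem K (coefT_mem_slice K hf t) e α h'
  · have h : coefT k n t f = 0 := funext fun e' => hf.2 e' t ht
    show coefT k n t (delta k (Lam k n) f) e = 0
    rw [coefT_delta, h, map_zero]
    rfl

/-! ### Coordinates -/

variable (n) in
/-- The harmonic monomials in degrees at least `L`. -/
def idxJ (L j : ℤ) : Finset (ℤ × (Fin n → ℤ)) :=
  (Finset.Icc L (-1)).biUnion fun t => (patJ n K t j).image (Prod.mk t)

variable (n) in
/-- The chart carrying the harmonic classes of position `j`. -/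
def starJ (j : ℤ) : Chart n := fun a => if (a.val : ℤ) < -j - 1 then 2 else 1

theorem mem_patJ {t j : ℤ} {α : Fin n → ℤ} :
    α ∈ patJ n K t j ↔
      α ∈ pat n K t ∧ negCount n K t ≠ 0 ∧ j = -((negCount n K t : ℤ) + 1) := by
  unfold patJ
  split_ifs with h
  · exact ⟨fun hα => ⟨hα, h⟩, fun hα => hα.1⟩
  · exact ⟨fun hα => absurd hα (Finset.notMem_empty α), fun hα => absurd hα.2 h⟩

theorem le_neg_one_of_negCount_ne {t : ℤ} (h : negCount n K t ≠ 0) : t ≤ -1 := by
  have hn : 0 < n := by
    by_contra hn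
    refine h ?_
    have : IsEmpty (Fin n) := by
      rw [show n = 0 by omega]
      infer_instance
    simp [negCount]
  have := (lt_negCount_iff K t ⟨0, hn⟩).1 (Nat.pos_of_ne_zero h)
  simpa using this

theorem mem_idxJ {L j : ℤ} {i : ℤ × (Fin n → ℤ)} :
    i ∈ idxJ n K L j ↔ L ≤ i.1 ∧ i.2 ∈ patJ n K i.1 j := by
  simp only [idxJ, Finset.mem_biUnion, Finset.mem_Icc, Finset.mem_image]
  constructor
  · rintro ⟨t, ht, α, hα, rfl⟩
    exact ⟨ht.1, hα⟩
  · rintro ⟨h1, h2⟩
    exact ⟨i.1, ⟨h1, le_neg_one_of_negCount_ne K ((mem_patJ K).1 h2).2.1⟩, i.2, h2, rfl⟩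

theorem star_eq_starJ {t j : ℤ} {α : Fin n → ℤ} (h : α ∈ patJ n K t j) :
    Segre.star (c0T n K t α) (c1T n α) = starJ n j := by
  obtain ⟨hα, -, hj⟩ := (mem_patJ K).1 h
  funext a
  simp only [Segre.star, starJ, pat_both_iff K hα a, decide_eq_true_eq]
  have := lt_negCount_iff K t a
  split_ifs
  all_goals first
    | rfl
    | omega

theorem starJ_allowed {t j : ℤ} {α : Fin n → ℤ} (h : α ∈ patJ n K t j) :
    allowed n K t α (some (starJ n j)) := by
  rw [← star_eq_starJ K h]
  intro a
  simp only [Segre.star]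
  split_ifs with h1
  · exact ⟨fun e => absurd e (by decide), fun _ => by
      simp only [Bool.and_eq_true] at h1
      simpa [c1T] using h1.2⟩
  · exact ⟨fun e => absurd e (by decide), fun e => absurd e (by decide)⟩

theorem cdeg_starJ {t j : ℤ} {α : Fin n → ℤ} (h : α ∈ patJ n K t j) :
    (cdeg n (some (starJ n j)) : ℤ) = -j := by
  obtain ⟨hα, -, hj⟩ := (mem_patJ K).1 h
  rw [← star_eq_starJ K h]
  simp only [cdeg, twos_harm K hα (harm_star _ _)]
  push_cast
  omega

theorem pC_star {t j : ℤ} {α : Fin n → ℤ} (h : α ∈ patJ n K t j) (g : Cov n → k) :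
    pC k n (c0T n K t α) (c1T n α) g (some (starJ n j)) = g (some (starJ n j)) := by
  obtain ⟨hα, hp, -⟩ := (mem_patJ K).1 h
  have := congrFun (pC_coef_eq (k := k) K hα hp g) (Segre.star (c0T n K t α) (c1T n α))
  rw [← star_eq_starJ K h]
  simpa [someL, LinearMap.funLeft, vE_star] using this

theorem slice_bdry_coord {t j : ℤ} {α : Fin n → ℤ} (h : α ∈ patJ n K t j)
    {y : Cov n → Coef k n} (hy : y ∈ slice k n K t) :
    ((delta k (Coef k n) y) (some (starJ n j))).coeff α = 0 := by
  show coefA k n α (delta k (Coef k n) y) (some (starJ n j)) = 0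
  rw [coefA_delta]
  refine (pC_star K h (dC k n (coefA k n α y))).symm.trans ?_
  rw [pC_dC (supC_of_slice K hy α)]
  rfl

/-- A slice cycle without harmonic coordinates is the boundary of its contraction. -/
theorem slice_exact {t j : ℤ} {y : Cov n → Coef k n} (hy : y ∈ slice k n K t)
    (hj : y ∈ (sliceDiff k n).deg j) (hd : delta k (Coef k n) y = 0)
    (hc : ∀ α ∈ patJ n K t j, (y (some (starJ n j))).coeff α = 0) :
    delta k (Coef k n) (hS k n K t y) = y := by
  refine coefA_ext fun α => ?_
  have hdα : dC k n (coefA k n α y) = 0 := by rw [← coefA_delta, hd, map_zero]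
  have hp : pC k n (c0T n K t α) (c1T n α) (coefA k n α y) = 0 := by
    by_cases h : α ∈ pat n K t ∧ negCount n K t ≠ 0
    · refine ext_cov (by simp [pC]) ?_
      rw [pC_coef_eq K h.1 h.2, map_zero]
      refine smul_eq_zero_of_left ?_ _
      by_cases hjp : j = -((negCount n K t : ℤ) + 1)
      · have hJ : α ∈ patJ n K t j := (mem_patJ K).2 ⟨h.1, h.2, hjp⟩
        rw [star_eq_starJ K hJ]
        exact hc α hJ
      · show (y (some _)).coeff α = 0
        rw [hj _ (by
          simp only [cdeg, twos_harm K h.1 (harm_star _ _)]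
          push_cast
          omega)]
        simp
    · exact pC_coef_eq_zero K h _
  rw [coefA_delta, hS, coefA_liftA]
  have := contractionC (supC_of_slice K hy α)
  rwa [hdα, map_zero, add_zero, hp, add_zero] at this

theorem hS_mem {t j : ℤ} {y : Cov n → Coef k n} (hy : y ∈ slice k n K t)
    (hj : y ∈ (sliceDiff k n).deg j) :
    hS k n K t y ∈ slice k n K t ∧ hS k n K t y ∈ (sliceDiff k n).deg (j + 1) :=
  ⟨mem_slice_of_supC K fun α => by
      rw [hS, coefA_liftA]; exact supC_hC (supC_of_slice K hy α),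
    deg_of_grC fun α => by
      rw [hS, coefA_liftA]
      refine grC_hC ?_
      rw [show -(j + 1) + 1 = -j by ring]
      exact grC_of_deg hj α⟩

variable (k n) in
/-- The harmonic coordinates. -/
def coord (L j : ℤ) : (Cov n → Lam k n) →ₗ[k] (idxJ n K L j → k) where
  toFun f i := ((f (some (starJ n j))).coeff i.1.1).coeff i.1.2
  map_add' f g := by funext i; simp
  map_smul' c f := by funext i; simp

variable (k n) in
/-- A monomial at the harmonic chart. -/
def seed (j : ℤ) (α : Fin n → ℤ) : Cov n → Coef k n :=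
  fun e => if e = some (starJ n j) then AddMonoidAlgebra.single α 1 else 0

variable (k n) in
/-- The harmonic cycle attached to an index. -/
def rep (j : ℤ) (i : ℤ × (Fin n → ℤ)) : Cov n → Lam k n :=
  fun e => HahnSeries.single i.1 (pS k n K i.1 (seed k n j i.2) e)

theorem seed_mem {t j : ℤ} {α : Fin n → ℤ} (h : α ∈ patJ n K t j) :
    seed k n j α ∈ slice k n K t ∧ seed k n j α ∈ (sliceDiff k n).deg j := by
  refine ⟨fun e β hβ => ?_, fun e he => ?_⟩
  · simp only [seed] at hβ
    split_ifs at hβ with e1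
    · subst e1
      rw [AddMonoidAlgebra.coeff_single, Finsupp.single_apply] at hβ
      split_ifs at hβ with e2
      · subst e2; exact starJ_allowed K h
      · exact absurd rfl hβ
    · exact absurd (by simp) hβ
  · simp only [seed]
    rw [if_neg]
    rintro rfl
    exact he (by rw [cdeg_starJ K h]; ring)

theorem pS_seed_star {t j : ℤ} {α : Fin n → ℤ} (h : α ∈ patJ n K t j) :
    pS k n K t (seed k n j α) (some (starJ n j)) = AddMonoidAlgebra.single α 1 := by
  refine AddMonoidAlgebra.ext (Finsupp.ext fun β => ?_)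
  show coefA k n β (pS k n K t (seed k n j α)) (some (starJ n j)) = _
  rw [pS, coefA_liftA]
  by_cases hβ : α = β
  · subst hβ
    rw [pC_star K h]
    simp [coefA, seed]
  · have h0 : coefA k n β (seed k n j α) = 0 := funext fun e => by
      show (seed k n j α e).coeff β = 0
      simp only [seed]
      split_ifs
      · simp [hβ]
      · simp
    rw [h0, map_zero]
    simp [hβ]

theorem coefT_rep (j : ℤ) (i : ℤ × (Fin n → ℤ)) (t : ℤ) :
    coefT k n t (rep k n K j i) = if t = i.1 then pS k n K i.1 (seed k n j i.2) else 0 := by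
  funext e
  show (HahnSeries.single i.1 _).coeff t = _
  rw [HahnSeries.coeff_single]
  split_ifs <;> rfl

theorem rep_mem_cycles {L j : ℤ} {i : ℤ × (Fin n → ℤ)} (hi : i ∈ idxJ n K L j) :
    rep k n K j i ∈ (lamDiff k n).cycles (cutK k n K L) ⊥ j := by
  obtain ⟨hL, hα⟩ := (mem_idxJ K).1 hi
  obtain ⟨hs, hd⟩ := seed_mem (k := k) K hα
  have hp : pS k n K i.1 (seed k n j i.2) ∈ slice k n K i.1 :=
    mem_slice_of_supC K fun α => by
      rw [pS, coefA_liftA]; exact supC_pC (supC_of_slice K hs α)
  have hpd : pS k n K i.1 (seed k n j i.2) ∈ (sliceDiff k n).deg j :=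
    deg_of_grC fun α => by rw [pS, coefA_liftA]; exact grC_pC (grC_of_deg hd α)
  refine ⟨⟨⟨fun e t α h => ?_, fun e t ht => ?_⟩, fun e he => ?_⟩, ?_⟩
  · have h' : (coefT k n t (rep k n K j i) e).coeff α ≠ 0 := h
    rw [coefT_rep] at h'
    split_ifs at h' with e1
    · subst e1; exact hp e α h'
    · exact absurd (by simp) h'
  · show coefT k n t (rep k n K j i) e = 0
    rw [coefT_rep, if_neg (by omega)]
    rfl
  · refine HahnSeries.ext (funext fun t => ?_)
    show coefT k n t (rep k n K j i) e = 0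
    rw [coefT_rep]
    split_ifs
    · exact hpd e he
    · rfl
  · rw [SetLike.mem_coe, Submodule.mem_comap, Submodule.mem_bot]
    funext e
    refine HahnSeries.ext (funext fun t => ?_)
    show coefT k n t (delta k (Lam k n) (rep k n K j i)) e = 0
    rw [coefT_delta, coefT_rep]
    split_ifs
    · have : delta k (Coef k n) (pS k n K i.1 (seed k n j i.2)) = 0 := by
        refine coefA_ext fun α => ?_
        rw [coefA_delta, pS, coefA_liftA, map_zero]
        exact dC_pC _ _ _
      rw [this]; rfl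
    · rw [map_zero]; rfl

theorem coord_rep {L j : ℤ} (i : idxJ n K L j) :
    coord k n K L j (rep k n K j i.1) = Pi.single i 1 := by
  classical
  funext i'
  show ((rep k n K j i.1 (some (starJ n j))).coeff i'.1.1).coeff i'.1.2 = _
  simp only [rep]
  rw [pS_seed_star K ((mem_idxJ K).1 i.2).2, HahnSeries.coeff_single]
  by_cases h : i' = i
  · subst h; simp
  · rw [Pi.single_eq_of_ne h]
    split_ifs with h1
    · rw [AddMonoidAlgebra.coeff_single, Finsupp.single_apply, if_neg]
      intro h2
      exact h (Subtype.ext (Prod.ext h1 h2.symm))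
    · simp

theorem coord_bdry {L j : ℤ} {y : Cov n → Lam k n} (hy : y ∈ cutK k n K L) :
    coord k n K L j (delta k (Lam k n) y) = 0 := by
  funext i
  show (coefT k n i.1.1 (delta k (Lam k n) y) (some (starJ n j))).coeff i.1.2 = 0
  rw [coefT_delta]
  exact slice_bdry_coord K ((mem_idxJ K).1 i.2).2 (coefT_mem_slice K hy _)

theorem exact_of_coord {L j : ℤ} {x : Cov n → Lam k n} (hx : x ∈ cutK k n K L)
    (hj : x ∈ (lamDiff k n).deg j) (hd : delta k (Lam k n) x = 0)
    (hc : coord k n K L j x = 0) :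
    ∃ y, y ∈ cutK k n K L ∧ y ∈ (lamDiff k n).deg (j + 1) ∧ delta k (Lam k n) y = x := by
  have hlo : ∀ t, t < L → coefT k n t x = 0 := fun t ht => funext fun e => hx.2 e t ht
  let w : ℤ → Cov n → Coef k n := fun t => hS k n K t (coefT k n t x)
  have hw0 : ∀ t, t < L → w t = 0 := fun t ht => by simp [w, hlo t ht]
  have hbdd : ∀ e, BddBelow (Function.support fun t => w t e) := fun e =>
    ⟨L, fun t ht => by
      by_contra hlt
      exact ht (by simp [hw0 t (not_le.1 hlt)])⟩
  let y : Cov n → Lam k n := fun e => HahnSeries.ofSuppBddBelow _ (hbdd e)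
  have hy : ∀ t, coefT k n t y = w t := fun t => funext fun e => rfl
  refine ⟨y, ⟨fun e t α h => ?_, fun e t ht => ?_⟩, fun e he => ?_, funext fun e => ?_⟩
  · exact (hS_mem K (coefT_mem_slice K hx t) (coefT_mem_deg hj t)).1 e α h
  · show w t e = 0
    rw [hw0 t ht]
    rfl
  · refine HahnSeries.ext (funext fun t => ?_)
    exact (hS_mem K (coefT_mem_slice K hx t) (coefT_mem_deg hj t)).2 e he
  · refine HahnSeries.ext (funext fun t => ?_)
    show coefT k n t (delta k (Lam k n) y) e = coefT k n t x e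
    rw [coefT_delta, hy, slice_exact K (coefT_mem_slice K hx t) (coefT_mem_deg hj t)
      (by rw [← coefT_delta, hd, map_zero])]
    intro α hα
    by_cases hL : L ≤ t
    · exact congrFun hc ⟨(t, α), (mem_idxJ K).2 ⟨hL, hα⟩⟩
    · rw [hlo t (not_le.1 hL)]
      simp

variable (k n) in
/-- Coordinates of a cycle. -/
def cycCoord (L j : ℤ) :
    (lamDiff k n).cycles (cutK k n K L) ⊥ j →ₗ[k] (idxJ n K L j → k) :=
  (coord k n K L j).comp (Submodule.subtype _)

theorem cycCoord_surjective (L j : ℤ) : Function.Surjective (cycCoord k n K L j) := by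
  classical
  intro v
  refine ⟨∑ i : idxJ n K L j, v i • ⟨_, rep_mem_cycles (k := k) K i.2⟩, ?_⟩
  rw [map_sum]
  simp only [map_smul, cycCoord, LinearMap.comp_apply, Submodule.subtype_apply, coord_rep]
  exact (pi_eq_sum_univ' v).symm

theorem ker_cycCoord (L j : ℤ) :
    LinearMap.ker (cycCoord k n K L j) =
      ((lamDiff k n).bdries (cutK k n K L) ⊥ j).comap
        ((lamDiff k n).cycles (cutK k n K L) ⊥ j).subtype := by
  ext ⟨x, ⟨hx, hj⟩, hd⟩
  rw [SetLike.mem_coe, Submodule.mem_comap, Submodule.mem_bot] at hd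
  simp only [LinearMap.mem_ker, cycCoord, LinearMap.comp_apply, Submodule.subtype_apply,
    Submodule.mem_comap, Diff.bdries, bot_inf_eq, sup_bot_eq, Submodule.mem_map]
  constructor
  · intro hc
    obtain ⟨y, y1, y2, y3⟩ := exact_of_coord K hx hj hd hc
    exact ⟨y, ⟨y1, y2⟩, y3⟩
  · rintro ⟨y, ⟨y1, -⟩, rfl⟩
    exact coord_bdry K y1

variable (k n) in
/-- The homology of the truncated complex. -/
def cutEquiv (L j : ℤ) :
    (lamDiff k n).H (cutK k n K L) ⊥ j ≃ₗ[k] (idxJ n K L j → k) :=
  homEquivOfKer (lamDiff k n) (cutK k n K L) j (cycCoord k n K L j)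
    (cycCoord_surjective K L j) (ker_cycCoord K L j)

theorem cutEquiv_mk {L j : ℤ} (x : (lamDiff k n).cycles (cutK k n K L) ⊥ j) :
    cutEquiv k n K L j (Submodule.Quotient.mk x) = coord k n K L j x.1 :=
  homEquivOfKer_mk (lamDiff k n) (cutK k n K L) j (cycCoord k n K L j)
    (cycCoord_surjective K L j) (ker_cycCoord K L j) x

theorem cut_finite (L j : ℤ) :
    Module.Finite k ((lamDiff k n).H (cutK k n K L) ⊥ j) :=
  Module.Finite.equiv (cutEquiv k n K L j).symm

theorem cut_betti (L j : ℤ) :
    (lamDiff k n).betti (cutK k n K L) ⊥ j = (idxJ n K L j).card := by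
  rw [Diff.betti, (cutEquiv k n K L j).finrank_eq, Module.finrank_pi, Fintype.card_coe]

/-! ### The action of a power series -/

theorem delta_smul (c : MvPowerSeries (Fin (n + 1)) k) (f : Cov n → Lam k n) :
    delta k (Lam k n) (c • f) = c • delta k (Lam k n) f := by
  have h : ∀ v : Cov n → Lam k n, delta k (Lam k n) v = delta (MvPowerSeries (Fin (n + 1)) k) (Lam k n) v := fun v => rfl
  rw [h, h, map_smul]

theorem smul_mem_cutK (c : MvPowerSeries (Fin (n + 1)) k) {L : ℤ} {f : Cov n → Lam k n} (hf : f ∈ cutK k n K L) :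
    c • f ∈ cutK k n K L := by
  refine ⟨fun e => Submodule.smul_mem _ c (hf.1 e), fun e t ht => ?_⟩
  exact smul_coeff_eq_zero (K := 0) (f := c) (by simp) (g := f e) (lo := L - 1)
    (fun s hs => hf.2 e s (by omega)) (t := t) (by omega)

theorem smul_mem_cycles (c : MvPowerSeries (Fin (n + 1)) k) {L j : ℤ} {f : Cov n → Lam k n}
    (hf : f ∈ (lamDiff k n).cycles (cutK k n K L) ⊥ j) :
    c • f ∈ (lamDiff k n).cycles (cutK k n K L) ⊥ j := by
  obtain ⟨⟨h1, h2⟩, h3⟩ := hf
  refine ⟨⟨smul_mem_cutK K c h1, fun e he => ?_⟩, ?_⟩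
  · rw [Pi.smul_apply, h2 e he, smul_zero]
  · rw [SetLike.mem_coe, Submodule.mem_comap, Submodule.mem_bot] at h3 ⊢
    show delta k (Lam k n) (c • f) = 0
    rw [delta_smul, show delta k (Lam k n) f = 0 from h3, smul_zero]

variable (k n) in
/-- Multiplication on cycles. -/
def cycMul (c : MvPowerSeries (Fin (n + 1)) k) (L j : ℤ) :
    (lamDiff k n).cycles (cutK k n K L) ⊥ j →ₗ[k]
      (lamDiff k n).cycles (cutK k n K L) ⊥ j where
  toFun x := ⟨c • x.1, smul_mem_cycles K c x.2⟩
  map_add' x y := Subtype.ext (smul_add c x.1 y.1)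
  map_smul' a x := Subtype.ext (smul_comm c a x.1)

variable (k n) in
/-- Multiplication on the homology of the truncated complex. -/
def homMul (c : MvPowerSeries (Fin (n + 1)) k) (L j : ℤ) :
    (lamDiff k n).H (cutK k n K L) ⊥ j →ₗ[k] (lamDiff k n).H (cutK k n K L) ⊥ j :=
  Submodule.mapQ _ _ (cycMul k n K c L j) (by
    rintro ⟨x, hx⟩ h
    simp only [Submodule.mem_comap, Submodule.subtype_apply, Diff.bdries, bot_inf_eq, sup_bot_eq,
      Submodule.mem_map] at h ⊢
    obtain ⟨y, ⟨y1, y2⟩, hy⟩ := h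
    refine ⟨c • y, ⟨smul_mem_cutK K c y1, fun e he => ?_⟩, ?_⟩
    · rw [Pi.smul_apply, y2 e he, smul_zero]
    · show delta k (Lam k n) (c • y) = c • x
      rw [delta_smul]
      exact congrArg _ hy)

variable (k n) in
/-- The symbol of `c`. -/
def gam (c : MvPowerSeries (Fin (n + 1)) k) (dt : ℤ) (dα : Fin n → ℤ) : k := ((segreHom k n c).coeff dt).coeff dα

variable (k n) in
/-- The Toeplitz operator of `c`. -/
def toep (c : MvPowerSeries (Fin (n + 1)) k) (L j : ℤ) : (idxJ n K L j → k) →ₗ[k] (idxJ n K L j → k) where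
  toFun v i' := ∑ i : idxJ n K L j, gam k n c (i'.1.1 - i.1.1) (i'.1.2 - i.1.2) * v i
  map_add' v w := by funext i'; simp [mul_add, Finset.sum_add_distrib]
  map_smul' a v := by
    funext i'
    simp [Finset.mul_sum, mul_left_comm]

theorem coord_smul_rep (c : MvPowerSeries (Fin (n + 1)) k) {L j : ℤ} (i i' : idxJ n K L j) :
    coord k n K L j (c • rep k n K j i.1) i' =
      gam k n c (i'.1.1 - i.1.1) (i'.1.2 - i.1.2) := by
  show ((c • rep k n K j i.1 (some (starJ n j))).coeff i'.1.1).coeff i'.1.2 = _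
  simp only [rep]
  rw [pS_seed_star K ((mem_idxJ K).1 i.2).2, smul_def]
  have h := HahnSeries.coeff_mul_single_add
    (r := (AddMonoidAlgebra.single i.1.2 (1 : k) : Coef k n))
    (x := segreHom k n c) (a := i'.1.1 - i.1.1) (b := i.1.1)
  rw [sub_add_cancel] at h
  rw [h, AddMonoidAlgebra.coeff_mul_single_eq_coeff_mul (i'.1.2 - i.1.2) (fun m' _ => by
    exact ⟨fun e => eq_sub_of_add_eq e, fun e => by rw [e, sub_add_cancel]⟩), mul_one]
  rfl

/-- Multiplication is the Toeplitz operator in harmonic coordinates. -/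
theorem cutEquiv_homMul (c : MvPowerSeries (Fin (n + 1)) k) (L j : ℤ) (q : (lamDiff k n).H (cutK k n K L) ⊥ j) :
    cutEquiv k n K L j (homMul k n K c L j q) = toep k n K c L j (cutEquiv k n K L j q) := by
  classical
  obtain ⟨x, rfl⟩ := Submodule.Quotient.mk_surjective _ q
  set v := coord k n K L j x.1 with hv
  let z : (lamDiff k n).cycles (cutK k n K L) ⊥ j :=
    ∑ i : idxJ n K L j, v i • ⟨_, rep_mem_cycles (k := k) K i.2⟩
  have hz : coord k n K L j z.1 = v := by
    show cycCoord k n K L j z = v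
    simp only [z, map_sum, map_smul, cycCoord, LinearMap.comp_apply, Submodule.subtype_apply,
      coord_rep]
    exact (pi_eq_sum_univ' v).symm
  have heq : (Submodule.Quotient.mk x : (lamDiff k n).H (cutK k n K L) ⊥ j) =
      Submodule.Quotient.mk z :=
    (cutEquiv k n K L j).injective (by rw [cutEquiv_mk, cutEquiv_mk, hz])
  rw [heq, homMul, Submodule.mapQ_apply, cutEquiv_mk, cutEquiv_mk, hz]
  funext i'
  show coord k n K L j (c • z.1) i' = _
  simp only [z, AddSubmonoidClass.coe_finsetSum, SetLike.val_smul, Finset.smul_sum, map_sum,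
    Finset.sum_apply, smul_comm c (_ : k), map_smul, Pi.smul_apply, coord_smul_rep, smul_eq_mul]
  exact Finset.sum_congr rfl fun i _ => mul_comm _ _

end Vale.Agent.P202.NC.Band
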