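import Vale.Agent.P202.Segre.Finite
import Vale.Agent.P202.NC.Band.Coord

/-!
# P202, general source ring: the leading monomial of a nonzero power series in the Segre model
-/

noncomputable section

namespace Vale.Agent.P202.NC.Band

open Finset Segre

variable {k : Type*} [Field k] {n : ℕ}

/-- `μ` is the lexicographically largest monomial of `x`, with coefficient one. -/
def Top (x : Coef k n) (μ : Fin n → ℤ) : Prop :=
  x.coeff μ = 1 ∧ ∀ α, x.coeff α ≠ 0 → toLex α ≤ toLex μ

theorem Top.one : Top (1 : Coef k n) 0 := by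
  refine ⟨by simp [AddMonoidAlgebra.one_def], fun α h => ?_⟩
  rw [AddMonoidAlgebra.one_def, AddMonoidAlgebra.coeff_single, Finsupp.single_apply] at h
  split_ifs at h with e
  · exact le_of_eq (congrArg toLex e.symm)
  · exact absurd rfl h

theorem Top.mul {x y : Coef k n} {μ ν : Fin n → ℤ} (hx : Top x μ) (hy : Top y ν) :
    Top (x * y) (μ + ν) := by
  classical
  refine ⟨?_, fun γ h => ?_⟩
  · have huniq : ∀ α β, x.coeff α ≠ 0 → y.coeff β ≠ 0 → α + β = μ + ν → α = μ ∧ β = ν := by
      intro α β hα hβ e
      have h1 : toLex α + toLex β = toLex μ + toLex ν := congrArg toLex e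
      have h2 := (add_eq_add_iff_eq_and_eq (hx.2 α hα) (hy.2 β hβ)).1 h1
      exact ⟨toLex.injective h2.1, toLex.injective h2.2⟩
    rw [AddMonoidAlgebra.coeff_mul, Finsupp.sum, Finset.sum_eq_single μ]
    · rw [Finsupp.sum, Finset.sum_eq_single ν]
      · rw [if_pos rfl, hx.1, hy.1, one_mul]
      · intro β hβ hne
        exact if_neg fun e => hne (huniq μ β (by rw [hx.1]; exact one_ne_zero)
          (Finsupp.mem_support_iff.1 hβ) e).2
      · intro h; rw [Finsupp.notMem_support_iff.1 h, mul_zero, ite_self]
    · intro α hα hne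
      refine Finset.sum_eq_zero fun β hβ => ?_
      exact if_neg fun e => hne (huniq α β (Finsupp.mem_support_iff.1 hα)
        (Finsupp.mem_support_iff.1 hβ) e).1
    · intro h
      rw [Finsupp.notMem_support_iff, hx.1] at h
      exact absurd h one_ne_zero
  · obtain ⟨α, β, hα, hβ, rfl⟩ := coef_mul_ne h
    exact add_le_add (hx.2 α hα) (hy.2 β hβ)

theorem Top.pow {x : Coef k n} {μ : Fin n → ℤ} (hx : Top x μ) : ∀ m : ℕ, Top (x ^ m) (m • μ)
  | 0 => by simpa using Top.one
  | m + 1 => by rw [pow_succ, succ_nsmul]; exact (hx.pow m).mul hx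

variable (n) in
/-- The first `j` factors. -/
def firstInd (j : ℕ) : Fin n → ℤ := fun a => if a.val < j then 1 else 0

theorem top_esym {j : ℕ} (hj : j ≤ n) : Top (esym k n j) (firstInd n j) := by
  classical
  let s0 : Finset (Fin n) := univ.filter fun a => a.val < j
  have hs0 : s0.card = j := by
    simp only [s0, Fin.card_filter_val_lt]
    exact min_eq_right hj
  have hind : (fun a => if a ∈ s0 then (1 : ℤ) else 0) = firstInd n j := by
    funext a; simp [s0, firstInd]
  have hinj : ∀ s : Finset (Fin n), (fun a => if a ∈ s then (1 : ℤ) else 0) = firstInd n j →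
      s = s0 := by
    intro s h
    ext a
    have := congrFun h a
    simp only [firstInd] at this
    simp only [s0, Finset.mem_filter, Finset.mem_univ, true_and]
    split_ifs at this with h1 h2 h2 <;> simp_all
  refine ⟨?_, fun α h => ?_⟩
  · rw [esym, AddMonoidAlgebra.coeff_sum, Finsupp.finsetSum_apply,
      Finset.sum_eq_single_of_mem s0 (Finset.mem_powersetCard.2 ⟨Finset.subset_univ _, hs0⟩)]
    · simp [hind]
    · intro s _ hs
      rw [AddMonoidAlgebra.coeff_single, Finsupp.single_apply, if_neg fun e => hs (hinj s e)]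
  · rw [esym, AddMonoidAlgebra.coeff_sum, Finsupp.finsetSum_apply] at h
    obtain ⟨s, hs, h⟩ := Finset.exists_ne_zero_of_sum_ne_zero h
    rw [AddMonoidAlgebra.coeff_single, Finsupp.single_apply] at h
    split_ifs at h with e
    · subst e
      by_cases hss : s = s0
      · rw [hss, hind]
      · have hne : (s0 \ s).Nonempty := by
          rw [Finset.sdiff_nonempty]
          intro hsub
          refine hss (Finset.eq_of_subset_of_card_le hsub ?_).symm
          rw [hs0, (Finset.mem_powersetCard.1 hs).2]
        refine le_of_lt ⟨(s0 \ s).min' hne, fun b hb => ?_, ?_⟩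
        · have hmem := Finset.mem_sdiff.1 ((s0 \ s).min'_mem hne)
          have hb0 : b ∈ s0 := Finset.mem_filter.2 ⟨Finset.mem_univ _,
            lt_trans (Fin.lt_def.1 hb) (Finset.mem_filter.1 hmem.1).2⟩
          have hbs : b ∈ s := by
            by_contra hbs
            exact absurd (Finset.min'_le _ b (Finset.mem_sdiff.2 ⟨hb0, hbs⟩)) (not_le.2 hb)
          show (if b ∈ s then (1 : ℤ) else 0) = firstInd n j b
          rw [if_pos hbs, firstInd, if_pos (Finset.mem_filter.1 hb0).2]
        · have hmem := Finset.mem_sdiff.1 ((s0 \ s).min'_mem hne)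
          show (if _ ∈ s then (1 : ℤ) else 0) < firstInd n j _
          rw [if_neg hmem.2, firstInd, if_pos (Finset.mem_filter.1 hmem.1).2]
          exact one_pos
    · exact absurd rfl h

variable (n) in
/-- The top exponent of a monomial in the variables. -/
def topExp (d : Fin (n + 1) →₀ ℕ) : Fin n → ℤ := ∑ j, d j • firstInd n j.val

theorem top_prod (d : Fin (n + 1) →₀ ℕ) :
    Top (d.prod fun j e => esym k n j ^ e) (topExp n d) := by
  classical
  rw [Finsupp.prod_fintype _ _ fun j => pow_zero _, topExp]
  induction (Finset.univ : Finset (Fin (n + 1))) using Finset.induction with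
  | empty => simpa using Top.one
  | insert j s hj ih =>
      rw [Finset.prod_insert hj, Finset.sum_insert hj]
      exact ((top_esym (k := k) (Nat.lt_succ_iff.1 j.isLt)).pow (d j)).mul ih

theorem topExp_apply (d : Fin (n + 1) →₀ ℕ) (a : Fin n) :
    topExp n d a = ∑ j : Fin (n + 1), if a.val + 1 ≤ j.val then (d j : ℤ) else 0 := by
  rw [topExp, Finset.sum_apply]
  refine Finset.sum_congr rfl fun j _ => ?_
  show d j • (if a.val < j.val then (1 : ℤ) else 0) = _
  simp

/-- Monomials of one degree have different top exponents. -/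
theorem topExp_inj {d d' : Fin (n + 1) →₀ ℕ} (hdeg : d.degree = d'.degree)
    (h : topExp n d = topExp n d') : d = d' := by
  classical
  let T : (Fin (n + 1) →₀ ℕ) → ℕ → ℤ := fun d i => ∑ j, if i ≤ j.val then (d j : ℤ) else 0
  have hT : ∀ i, T d i = T d' i := by
    intro i
    rcases Nat.eq_zero_or_pos i with hi | hi
    · subst hi
      simp only [T, zero_le, if_true]
      rw [← Nat.cast_sum, ← Nat.cast_sum, ← Finsupp.degree_eq_sum, ← Finsupp.degree_eq_sum, hdeg]
    · by_cases hin : i ≤ n
      · have := congrFun h ⟨i - 1, by omega⟩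
        simp only [topExp_apply, show i - 1 + 1 = i by omega] at this
        exact this
      · simp only [T]
        refine Finset.sum_congr rfl fun j _ => ?_
        rw [if_neg (by omega), if_neg (by omega)]
  ext j
  have hsplit : ∀ e : Fin (n + 1) →₀ ℕ, T e j.val - T e (j.val + 1) = (e j : ℤ) := by
    intro e
    simp only [T, ← Finset.sum_sub_distrib]
    rw [Finset.sum_eq_single j]
    · simp
    · intro l _ hl
      have : l.val ≠ j.val := fun e' => hl (Fin.ext e')
      split_ifs <;> omega
    · simp
  have := hsplit d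
  rw [hT, hT, hsplit d'] at this
  exact_mod_cast this.symm

/-- A nonzero power series has nonzero image. -/
theorem segreHom_ne_zero {c : MvPowerSeries (Fin (n + 1)) k} (hc : c ≠ 0) :
    segreHom k n c ≠ 0 := by
  classical
  obtain ⟨d0, hd0⟩ : ∃ d, MvPowerSeries.coeff d c ≠ 0 := by
    by_contra h
    push Not at h
    exact hc (MvPowerSeries.ext fun d => by simp [h d])
  set o := d0.degree with ho
  let S : Finset (Fin (n + 1) →₀ ℕ) :=
    (Finset.Iic (Finsupp.equivFunOnFinite.symm fun _ => o)).filter
      fun d => d.degree = o ∧ MvPowerSeries.coeff d c ≠ 0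
  have hS : ∀ d : Fin (n + 1) →₀ ℕ, d ∈ S ↔ d.degree = o ∧ MvPowerSeries.coeff d c ≠ 0 := by
    intro d
    simp only [S, Finset.mem_filter, and_iff_right_iff_imp, Finset.mem_Iic]
    intro h i
    have := Finsupp.le_degree i d
    simp
    omega
  have hsum : PowerSeries.coeff o (toSeries k n c) =
      ∑ d ∈ S, MvPowerSeries.coeff d c • d.prod fun j e => esym k n j ^ e := by
    show MvPowerSeries.coeff (Finsupp.single () o)
      (MvPowerSeries.substAlgHom (hasSubst_xImg k n) c) = _
    rw [MvPowerSeries.coe_substAlgHom, MvPowerSeries.coeff_subst (hasSubst_xImg k n)]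
    have hterm : ∀ d : Fin (n + 1) →₀ ℕ,
        MvPowerSeries.coeff (Finsupp.single () o) (d.prod fun j e => xImg k n j ^ e) =
          if d.degree = o then (d.prod fun j e => esym k n j ^ e) else 0 := by
      intro d
      show PowerSeries.coeff o (d.prod fun j e => xImg k n j ^ e) = _
      rw [xImg_prod, PowerSeries.coeff_C_mul, PowerSeries.coeff_X_pow]
      simp only [mul_ite, mul_one, mul_zero, eq_comm]
    simp only [hterm]
    rw [finsum_eq_sum_of_support_subset _ (s := S)]
    · exact Finset.sum_congr rfl fun d hd => by rw [if_pos ((hS d).1 hd).1]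
    · intro d hd
      rw [Function.mem_support] at hd
      rw [Finset.mem_coe, hS]
      by_cases h1 : d.degree = o
      · exact ⟨h1, fun h => hd (by rw [h, zero_smul])⟩
      · rw [if_neg h1, smul_zero] at hd
        exact absurd rfl hd
  obtain ⟨d, hdS, hmax⟩ := S.exists_max_image (fun d => toLex (topExp n d))
    ⟨d0, (hS d0).2 ⟨rfl, hd0⟩⟩
  intro h0
  have hz : (PowerSeries.coeff o (toSeries k n c)).coeff (topExp n d) = 0 := by
    rw [← segreHom_coeff_nat, h0]
    simp
  rw [hsum, AddMonoidAlgebra.coeff_sum, Finsupp.finsetSum_apply,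
    Finset.sum_eq_single_of_mem d hdS] at hz
  · rw [AddMonoidAlgebra.coeff_smul, Finsupp.smul_apply, (top_prod d).1, smul_eq_mul,
      mul_one] at hz
    exact ((hS d).1 hdS).2 hz
  · intro e heS hne
    rw [AddMonoidAlgebra.coeff_smul, Finsupp.smul_apply]
    refine smul_eq_zero_of_right _ ?_
    by_contra hnz
    exact hne (topExp_inj (((hS e).1 heS).1.trans ((hS d).1 hdS).1.symm)
      (toLex.injective (le_antisymm (hmax e heS) ((top_prod e).2 _ hnz))))

/-- The leading monomial: lowest degree, then lexicographically largest. -/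
theorem exists_lead {c : MvPowerSeries (Fin (n + 1)) k} (hc : c ≠ 0) :
    ∃ (o : ℕ) (η : Fin n → ℤ), gam k n c o η ≠ 0 ∧
      (∀ t : ℤ, t < o → ∀ α, gam k n c t α = 0) ∧
      (∀ α, gam k n c o α ≠ 0 → toLex α ≤ toLex η) ∧ ∀ a, 0 ≤ η a ∧ η a ≤ o := by
  classical
  have hex : ∃ s : ℕ, (segreHom k n c).coeff (s : ℤ) ≠ 0 := by
    by_contra h
    push Not at h
    refine segreHom_ne_zero hc (HahnSeries.ext (funext fun t => ?_))
    rcases lt_or_ge t 0 with ht | ht
    · simp [segreHom_coeff_neg k n c ht]
    · obtain ⟨s, rfl⟩ := Int.eq_ofNat_of_zero_le ht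
      simp [h s]
  set o := Nat.find hex
  have ho := Nat.find_spec hex
  set x := (segreHom k n c).coeff (o : ℤ) with hx
  have hne : x.coeff.support.Nonempty := by
    rw [Finsupp.support_nonempty_iff]
    exact fun h => ho (AddMonoidAlgebra.ext h)
  obtain ⟨η, hη, hmax⟩ := x.coeff.support.exists_max_image toLex hne
  refine ⟨o, η, Finsupp.mem_support_iff.1 hη, fun t ht α => ?_,
    fun α hα => hmax α (Finsupp.mem_support_iff.2 hα), fun a => ?_⟩
  · show ((segreHom k n c).coeff t).coeff α = 0
    rcases lt_or_ge t 0 with h0 | h0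
    · simp [segreHom_coeff_neg k n c h0]
    · obtain ⟨s, rfl⟩ := Int.eq_ofNat_of_zero_le h0
      have : (segreHom k n c).coeff (s : ℤ) = 0 := not_not.1 (Nat.find_min hex (by omega))
      simp [this]
  · have h := Finsupp.mem_support_iff.1 hη
    rw [hx, segreHom_coeff_nat] at h
    exact toSeries_mem_box k n c o η h a

end Vale.Agent.P202.NC.Band
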