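import Vale.Agent.P202.NC.Band.Lead

/-!
# P202, general source ring: the band estimate

A nonzero power series acts on the homology of the Čech complex cut to degrees `≥ L` with kernel
and cokernel of dimension `O(K ^ n)`.
-/

noncomputable section

namespace Vale.Agent.P202.NC.Band

open Finset Segre

variable {k : Type*} [Field k] {n : ℕ} (K : ℕ)

variable (n) in
/-- Indices whose translate by the leading monomial is not harmonic. -/
def badIdx (o : ℕ) (η : Fin n → ℤ) (L j : ℤ) : Finset (ℤ × (Fin n → ℤ)) :=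
  (idxJ n K L j).filter fun i => (i.1 + (o : ℤ), i.2 + η) ∉ idxJ n K L j

/-- The rank of the Toeplitz operator. -/
theorem card_le_toep_rank (c : MvPowerSeries (Fin (n + 1)) k) {o : ℕ} {η : Fin n → ℤ} (hη : gam k n c o η ≠ 0)
    (hlow : ∀ t : ℤ, t < o → ∀ α, gam k n c t α = 0)
    (htop : ∀ α, gam k n c o α ≠ 0 → toLex α ≤ toLex η) (L j : ℤ) :
    (idxJ n K L j).card ≤
      Module.finrank k (LinearMap.range (toep k n K c L j)) + (badIdx n K o η L j).card := by
  classical
  set I := idxJ n K L j with hI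
  let good := I.filter fun i => (i.1 + (o : ℤ), i.2 + η) ∈ I
  have hsplit : good.card + (badIdx n K o η L j).card = I.card :=
    Finset.card_filter_add_card_filter_not _
  let v : good → LinearMap.range (toep k n K c L j) := fun g =>
    ⟨toep k n K c L j (Pi.single ⟨g.1, (Finset.mem_filter.1 g.2).1⟩ 1),
      LinearMap.mem_range_self _ _⟩
  have hv : ∀ (g : good) (i' : idxJ n K L j), (v g).1 i' =
      gam k n c (i'.1.1 - g.1.1) (i'.1.2 - g.1.2) := by
    intro g i'
    show ∑ i : idxJ n K L j, _ * Pi.single (M := fun _ : idxJ n K L j => k) _ (1 : k) i = _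
    rw [Finset.sum_eq_single ⟨g.1, (Finset.mem_filter.1 g.2).1⟩]
    · simp
    · intro i _ hi
      rw [Pi.single_eq_of_ne hi, mul_zero]
    · simp
  have hli : LinearIndependent k v := by
    rw [Fintype.linearIndependent_iff]
    intro a ha
    by_contra hcon
    push Not at hcon
    obtain ⟨g0, hg0⟩ := hcon
    let S := (Finset.univ : Finset good).filter fun g => a g ≠ 0
    have hSne : S.Nonempty := ⟨g0, Finset.mem_filter.2 ⟨Finset.mem_univ _, hg0⟩⟩
    obtain ⟨g, hgS, hmin⟩ := S.exists_min_image (fun g : good =>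
      toLex (g.1.1, OrderDual.toDual (toLex g.1.2))) hSne
    have hgood := (Finset.mem_filter.1 g.2).2
    have h0 := congrFun (congrArg Subtype.val ha) ⟨(g.1.1 + (o : ℤ), g.1.2 + η), hgood⟩
    simp only [AddSubmonoidClass.coe_finsetSum, SetLike.val_smul, Finset.sum_apply,
      Pi.smul_apply, hv, smul_eq_mul, ZeroMemClass.coe_zero, Pi.zero_apply] at h0
    rw [Finset.sum_eq_single g] at h0
    · rw [add_sub_cancel_left, add_sub_cancel_left] at h0
      exact (mul_ne_zero (Finset.mem_filter.1 hgS).2 hη) h0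
    · intro g' _ hne
      by_cases ha' : a g' = 0
      · rw [ha', zero_mul]
      refine mul_eq_zero_of_right _ ?_
      have hle := hmin g' (Finset.mem_filter.2 ⟨Finset.mem_univ _, ha'⟩)
      rcases Prod.Lex.toLex_le_toLex.1 hle with hlt | ⟨heq, hle2⟩
      · exact hlow _ (by omega) _
      · simp only at heq hle2
        rw [show g.1.1 + (o : ℤ) - g'.1.1 = (o : ℤ) by omega]
        by_contra hnz
        have h1 := htop _ hnz
        have h2 : toLex g'.1.2 ≤ toLex g.1.2 := hle2
        have hsum : toLex g.1.2 + toLex η ≤ toLex η + toLex g'.1.2 :=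
          sub_le_iff_le_add.1 (by exact h1)
        rw [add_comm (toLex η)] at hsum
        have h3 : toLex g.1.2 ≤ toLex g'.1.2 := le_of_add_le_add_right hsum
        exact hne (Subtype.ext (Prod.ext heq.symm (toLex.injective (le_antisymm h2 h3))))
    · simp
  have := hli.fintype_card_le_finrank
  rw [Fintype.card_coe] at this
  show I.card ≤ _
  omega

/-- The width of a harmonic box. -/
def width (n K : ℕ) : ℕ := (2 * n + 2) * K

theorem card_coord_le {t : ℤ} (hK : 1 ≤ K) (h1 : -(((n + 1) * K : ℕ) : ℤ) ≤ t) (h2 : t ≤ -1)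
    (a : Fin n) :
    (if 0 < t + (a.val : ℤ) * K then Finset.Icc 0 (t + shift n K a)
      else Finset.Ioo (t + shift n K a) 0).card ≤ width n K := by
  have h3 : (a.val : ℤ) * K ≤ (n : ℤ) * K :=
    mul_le_mul_of_nonneg_right (by exact_mod_cast a.isLt.le) (by omega)
  have h4 : (0 : ℤ) ≤ (a.val : ℤ) * K := by positivity
  have h5 : ((width n K : ℕ) : ℤ) = 2 * ((n : ℤ) * K) + 2 * K := by
    simp only [width]; push_cast; ring
  have h6 : (((n + 1) * K : ℕ) : ℤ) = (n : ℤ) * K + K := by push_cast; ring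
  simp only [shift]
  split_ifs <;> simp only [Int.card_Icc, Int.card_Ioo] <;> omega

theorem card_pat_le {t : ℤ} (hK : 1 ≤ K) (h1 : -(((n + 1) * K : ℕ) : ℤ) ≤ t) (h2 : t ≤ -1) :
    (pat n K t).card ≤ width n K ^ n := by
  rw [pat, Fintype.card_piFinset]
  refine (Finset.prod_le_prod' fun a _ => card_coord_le K hK h1 h2 a).trans ?_
  simp

variable (n) in
/-- The exponents failing in one factor. -/
def failSet (o : ℕ) (η : Fin n → ℤ) (t : ℤ) (a : Fin n) : Finset ℤ :=
  Finset.Ioc (t + shift n K a) (t + shift n K a + (o - η a)) ∪ Finset.Ico (-η a) 0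

theorem card_failSet_le {o : ℕ} {η : Fin n → ℤ} (hη : ∀ a, 0 ≤ η a ∧ η a ≤ o) (t : ℤ)
    (a : Fin n) : (failSet n K o η t a).card ≤ o := by
  refine (Finset.card_union_le _ _).trans ?_
  simp only [Int.card_Ioc, Int.card_Ico]
  have := hη a
  omega

theorem fail_of_not_mem_pat {o : ℕ} {η : Fin n → ℤ} (hη : ∀ a, 0 ≤ η a ∧ η a ≤ o) {t : ℤ}
    {α : Fin n → ℤ} (hα : α ∈ pat n K t) (hneg : negCount n K (t + o) = negCount n K t)
    (hnot : α + η ∉ pat n K (t + o)) : ∃ a, α a ∈ failSet n K o η t a := by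
  simp only [pat, Fintype.mem_piFinset, not_forall] at hnot hα
  obtain ⟨a, ha⟩ := hnot
  refine ⟨a, ?_⟩
  have h1 := hα a
  have hb := hη a
  have hiff : t + (o : ℤ) + (a.val : ℤ) * K ≤ -1 ↔ t + (a.val : ℤ) * K ≤ -1 := by
    rw [← lt_negCount_iff, ← lt_negCount_iff, hneg]
  simp only [failSet, Finset.mem_union, Finset.mem_Ioc, Finset.mem_Ico]
  simp only [Pi.add_apply, shift] at ha h1 ⊢
  split_ifs at h1 with hh <;> split_ifs at ha with hh' <;>
    simp only [Finset.mem_Icc, Finset.mem_Ioo] at h1 ha <;> omega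

variable (n) in
/-- Degrees near a sign change of some factor. -/
def edgeDeg (o : ℕ) : Finset ℤ :=
  (Finset.univ : Finset (Fin n)).biUnion fun b =>
    Finset.Ico (-(o : ℤ) - (b.val : ℤ) * K) (-((b.val : ℤ) * K))

theorem card_edgeDeg_le (o : ℕ) : (edgeDeg n K o).card ≤ n * o := by
  refine (Finset.card_biUnion_le).trans ?_
  have h : ∀ b : Fin n,
      (Finset.Ico (-(o : ℤ) - (b.val : ℤ) * K) (-((b.val : ℤ) * K))).card ≤ o := fun b => by
    simp only [Int.card_Ico]
    omega
  refine (Finset.sum_le_sum fun b _ => h b).trans ?_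
  simp

theorem mem_edgeDeg_of_ne {o : ℕ} {t : ℤ} (h : negCount n K (t + o) ≠ negCount n K t) :
    t ∈ edgeDeg n K o := by
  by_contra hno
  refine h ?_
  simp only [negCount]
  refine congrArg Finset.card (Finset.filter_congr fun b _ => ?_)
  simp only [edgeDeg, Finset.mem_biUnion, Finset.mem_univ, true_and, Finset.mem_Ico,
    not_exists] at hno
  have := hno b
  omega

/-- Indices lost under translation by the leading monomial. -/
theorem card_badIdx_le {o : ℕ} {η : Fin n → ℤ} (hη : ∀ a, 0 ≤ η a ∧ η a ≤ o) (hK : 1 ≤ K)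
    {L : ℤ} (hL : -(((n + 1) * K : ℕ) : ℤ) ≤ L) (j : ℤ) :
    (badIdx n K o η L j).card ≤ (n + 2) * n * o * (2 * n + 2) ^ n * K ^ n := by
  classical
  set W := width n K with hW
  let slab : ℤ → Fin n → Finset (Fin n → ℤ) := fun t a =>
    Fintype.piFinset (Function.update (fun b => if 0 < t + (b.val : ℤ) * K
      then Finset.Icc 0 (t + shift n K b) else Finset.Ioo (t + shift n K b) 0) a
      (failSet n K o η t a))
  let T := Finset.Icc L (-1)
  have hsub : badIdx n K o η L j ⊆
      ((edgeDeg n K o ∩ T).biUnion fun t => (pat n K t).image (Prod.mk t)) ∪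
        T.biUnion fun t => (Finset.univ : Finset (Fin n)).biUnion fun a =>
          (slab t a).image (Prod.mk t) := by
    rintro ⟨t, α⟩ hi
    obtain ⟨hmem, hnot⟩ := Finset.mem_filter.1 hi
    obtain ⟨hLt, hα⟩ := (mem_idxJ K).1 hmem
    obtain ⟨hp, hnz, hj⟩ := (mem_patJ K).1 hα
    have hT : t ∈ T := Finset.mem_Icc.2 ⟨hLt, le_neg_one_of_negCount_ne K hnz⟩
    by_cases hedge : negCount n K (t + o) = negCount n K t
    · refine Finset.mem_union_right _ ?_
      have hnp : α + η ∉ pat n K (t + o) := fun hin => hnot ((mem_idxJ K).2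
        ⟨by show L ≤ t + (o : ℤ); simp only at hLt; omega,
          (mem_patJ K).2 ⟨hin, by rwa [hedge], by rwa [hedge]⟩⟩)
      obtain ⟨a, ha⟩ := fail_of_not_mem_pat K hη hp hedge hnp
      refine Finset.mem_biUnion.2 ⟨t, hT, Finset.mem_biUnion.2 ⟨a, Finset.mem_univ _,
        Finset.mem_image.2 ⟨α, ?_, rfl⟩⟩⟩
      refine Fintype.mem_piFinset.2 fun b => ?_
      by_cases hb : b = a
      · subst hb; rw [Function.update_self]; exact ha
      · rw [Function.update_of_ne hb]
        exact (Fintype.mem_piFinset.1 hp) b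
    · exact Finset.mem_union_left _ (Finset.mem_biUnion.2 ⟨t, Finset.mem_inter.2
        ⟨mem_edgeDeg_of_ne K hedge, hT⟩, Finset.mem_image.2 ⟨α, hp, rfl⟩⟩)
  have hTb : ∀ t ∈ T, -(((n + 1) * K : ℕ) : ℤ) ≤ t ∧ t ≤ -1 := fun t ht => by
    have := Finset.mem_Icc.1 ht
    omega
  have hslab : ∀ t ∈ T, ∀ a, (slab t a).card ≤ o * W ^ (n - 1) := by
    intro t ht a
    simp only [slab, Fintype.card_piFinset]
    rw [← Finset.mul_prod_erase _ _ (Finset.mem_univ a), Function.update_self]
    refine Nat.mul_le_mul (card_failSet_le K hη t a) ?_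
    refine (Finset.prod_le_pow_card _ _ W fun b hb => ?_).trans ?_
    · rw [Function.update_of_ne (Finset.ne_of_mem_erase hb)]
      exact card_coord_le K hK (hTb t ht).1 (hTb t ht).2 b
    · simp
  have hTcard : T.card ≤ (n + 1) * K := by
    simp only [T, Int.card_Icc]
    omega
  refine (Finset.card_le_card hsub).trans ((Finset.card_union_le _ _).trans ?_)
  have h1 : ((edgeDeg n K o ∩ T).biUnion fun t => (pat n K t).image (Prod.mk t)).card ≤
      n * o * W ^ n := by
    refine (Finset.card_biUnion_le).trans ((Finset.sum_le_card_nsmul _ _ (W ^ n) fun t ht => ?_).trans ?_)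
    · exact Finset.card_image_le.trans
        (card_pat_le K hK (hTb t (Finset.mem_inter.1 ht).2).1 (hTb t (Finset.mem_inter.1 ht).2).2)
    · exact Nat.mul_le_mul_right _
        ((Finset.card_le_card Finset.inter_subset_left).trans (card_edgeDeg_le K o))
  have h2 : (T.biUnion fun t => (Finset.univ : Finset (Fin n)).biUnion fun a =>
      (slab t a).image (Prod.mk t)).card ≤ (n + 1) * K * (n * (o * W ^ (n - 1))) := by
    refine (Finset.card_biUnion_le).trans
      ((Finset.sum_le_card_nsmul _ _ (n * (o * W ^ (n - 1))) fun t ht => ?_).trans ?_)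
    · refine (Finset.card_biUnion_le).trans
        ((Finset.sum_le_card_nsmul _ _ (o * W ^ (n - 1)) fun a _ =>
          Finset.card_image_le.trans (hslab t ht a)).trans ?_)
      simp
    · exact Nat.mul_le_mul_right _ hTcard
  refine (Nat.add_le_add h1 h2).trans ?_
  rcases Nat.eq_zero_or_pos n with hn | hn
  · subst hn; simp
  · have hKW : K ≤ W := by
      simp only [hW, width]
      exact Nat.le_mul_of_pos_left K (by omega)
    have hpow : K * W ^ (n - 1) ≤ W ^ n := by
      conv_rhs => rw [show n = n - 1 + 1 by omega, pow_succ, mul_comm]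
      exact Nat.mul_le_mul_right _ hKW
    calc n * o * W ^ n + (n + 1) * K * (n * (o * W ^ (n - 1)))
        = n * o * W ^ n + (n + 1) * n * o * (K * W ^ (n - 1)) := by ring
      _ ≤ n * o * W ^ n + (n + 1) * n * o * W ^ n := by
          exact Nat.add_le_add_left (Nat.mul_le_mul_left _ hpow) _
      _ = (n + 2) * n * o * (2 * n + 2) ^ n * K ^ n := by
          simp only [hW, width, mul_pow]
          ring

/-- The band estimate. -/
theorem band {c : MvPowerSeries (Fin (n + 1)) k} (hc : c ≠ 0) :
    ∃ C : ℕ, ∀ K : ℕ, 1 ≤ K → ∀ L : ℤ, -(((n + 1) * K : ℕ) : ℤ) ≤ L → ∀ j : ℤ,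
      Module.finrank k (LinearMap.ker (homMul k n K c L j)) ≤ C * K ^ n ∧
      Module.finrank k ((lamDiff k n).H (cutK k n K L) ⊥ j ⧸
        LinearMap.range (homMul k n K c L j)) ≤ C * K ^ n := by
  obtain ⟨o, η, hη, hlow, htop, hbox⟩ := exists_lead hc
  refine ⟨(n + 2) * n * o * (2 * n + 2) ^ n, fun K hK L hL j => ?_⟩
  have hrank := card_le_toep_rank K c hη hlow htop L j
  have hbad := card_badIdx_le K hbox hK hL j
  have := cut_finite (k := k) (n := n) K L j
  set e := cutEquiv k n K L j
  have hmap : (LinearMap.range (homMul k n K c L j)).map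
      (e : (lamDiff k n).H (cutK k n K L) ⊥ j →ₗ[k] (idxJ n K L j → k)) =
      LinearMap.range (toep k n K c L j) := by
    rw [← LinearMap.range_comp]
    have : (e : (lamDiff k n).H (cutK k n K L) ⊥ j →ₗ[k] (idxJ n K L j → k)).comp
        (homMul k n K c L j) = (toep k n K c L j).comp
          (e : (lamDiff k n).H (cutK k n K L) ⊥ j →ₗ[k] (idxJ n K L j → k)) :=
      LinearMap.ext fun q => cutEquiv_homMul K c L j q
    rw [this, LinearMap.range_comp, LinearEquiv.range, Submodule.map_top]
  have hr : Module.finrank k (LinearMap.range (homMul k n K c L j)) =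
      Module.finrank k (LinearMap.range (toep k n K c L j)) := by
    rw [← hmap, LinearEquiv.finrank_map_eq]
  have hsum := LinearMap.finrank_range_add_finrank_ker (homMul k n K c L j)
  have hquot := Submodule.finrank_quotient_add_finrank (LinearMap.range (homMul k n K c L j))
  have hdim : Module.finrank k ((lamDiff k n).H (cutK k n K L) ⊥ j) = (idxJ n K L j).card := by
    rw [← cut_betti (k := k) K L j]; rfl
  omega

end Vale.Agent.P202.NC.Band
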